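import Mathlib

/-!
# One-dimensional measure bookkeeping and the chord inequality

`mlen X a b` is the Lebesgue measure of `X ∩ [a,b]` as a real number.
-/

namespace Vale.Agent.H65

open MeasureTheory Set

/-- Lebesgue measure of `X ∩ [a,b]`, as a real number. -/
noncomputable def mlen (X : Set ℝ) (a b : ℝ) : ℝ := (volume (X ∩ Icc a b)).toReal

lemma mlen_nonneg (X : Set ℝ) (a b : ℝ) : 0 ≤ mlen X a b := ENNReal.toReal_nonneg

lemma vol_inter_Icc_lt_top (X : Set ℝ) (a b : ℝ) : volume (X ∩ Icc a b) < ⊤ :=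
  lt_of_le_of_lt (measure_mono inter_subset_right) (by simp)

lemma mlen_le (X : Set ℝ) {a b : ℝ} (hab : a ≤ b) : mlen X a b ≤ b - a := by
  unfold mlen
  have h : volume (X ∩ Icc a b) ≤ volume (Icc a b) := measure_mono inter_subset_right
  have h2 : (volume (Icc a b)).toReal = b - a := by
    rw [Real.volume_Icc, ENNReal.toReal_ofReal (by linarith)]
  rw [← h2]
  exact ENNReal.toReal_mono (by simp) h

lemma mlen_self (X : Set ℝ) (a : ℝ) : mlen X a a = 0 := by
  have h := mlen_le X (le_refl a)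
  have h2 := mlen_nonneg X a a
  linarith

lemma mlen_add {X : Set ℝ} (hX : MeasurableSet X) {a b c : ℝ} (hab : a ≤ b) (hbc : b ≤ c) :
    mlen X a c = mlen X a b + mlen X b c := by
  unfold mlen
  have h1 : X ∩ Icc a c = (X ∩ Icc a b) ∪ (X ∩ Ioc b c) := by
    rw [← inter_union_distrib_left, Icc_union_Ioc_eq_Icc hab hbc]
  have h2 : Disjoint (X ∩ Icc a b) (X ∩ Ioc b c) := by
    apply Disjoint.mono inter_subset_right inter_subset_right
    rw [Set.disjoint_left]
    intro x hx hx'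
    exact absurd hx.2 (not_le.mpr hx'.1)
  have h3 : volume (X ∩ Ioc b c) = volume (X ∩ Icc b c) := by
    apply measure_congr
    exact (ae_eq_refl X).inter Ioc_ae_eq_Icc
  rw [h1, measure_union h2 (hX.inter measurableSet_Ioc), h3,
    ENNReal.toReal_add (vol_inter_Icc_lt_top X a b).ne (vol_inter_Icc_lt_top X b c).ne]

/-- The basic transport inequality along an affine map `s ↦ m * s + c`. -/
lemma chord_aux {X Y : Set ℝ} (hY : MeasurableSet Y) {s₁ s₂ lo hi m c : ℝ} (hm : m ≠ 0)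
    (hlh : lo ≤ hi)
    (hφ : ∀ s ∈ Icc s₁ s₂, s ∈ X → (m * s + c ∈ Icc lo hi ∧ m * s + c ∉ Y)) :
    |m| * mlen X s₁ s₂ + mlen Y lo hi ≤ hi - lo := by
  set T : Set ℝ := Icc lo hi \ Y with hT
  have hsub : X ∩ Icc s₁ s₂ ⊆ (fun s => m * s) ⁻¹' ((fun u => c + u) ⁻¹' T) := by
    intro s hs
    have := hφ s hs.2 hs.1
    simp only [mem_preimage, hT, mem_sdiff]
    rw [add_comm]
    exact this
  have hvol : volume ((fun s => m * s) ⁻¹' ((fun u => c + u) ⁻¹' T))
      = ENNReal.ofReal |m⁻¹| * volume T := by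
    rw [Real.volume_preimage_mul_left hm, measure_preimage_add]
  have hTfin : volume T < ⊤ :=
    lt_of_le_of_lt (measure_mono sdiff_subset) (by simp)
  have hT2 : (volume T).toReal = (hi - lo) - mlen Y lo hi := by
    have h := measure_inter_add_sdiff (μ := volume) (Icc lo hi) hY
    have h' : (volume (Icc lo hi ∩ Y)).toReal + (volume T).toReal = hi - lo := by
      rw [← ENNReal.toReal_add (lt_of_le_of_lt (measure_mono inter_subset_left) (by simp)).ne
        hTfin.ne, h, Real.volume_Icc, ENNReal.toReal_ofReal (by linarith)]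
    unfold mlen
    rw [inter_comm Y]
    linarith
  have h1 : mlen X s₁ s₂ ≤ |m⁻¹| * ((hi - lo) - mlen Y lo hi) := by
    rw [← hT2]
    have : (ENNReal.ofReal |m⁻¹| * volume T).toReal = |m⁻¹| * (volume T).toReal := by
      rw [ENNReal.toReal_mul, ENNReal.toReal_ofReal (abs_nonneg _)]
    rw [← this]
    unfold mlen
    apply ENNReal.toReal_mono
    · exact ENNReal.mul_ne_top ENNReal.ofReal_ne_top hTfin.ne
    · rw [← hvol]
      exact measure_mono hsub
  have hmpos : 0 < |m| := abs_pos.mpr hm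
  have h2 : |m| * mlen X s₁ s₂ ≤ |m| * (|m⁻¹| * ((hi - lo) - mlen Y lo hi)) :=
    mul_le_mul_of_nonneg_left h1 hmpos.le
  have h3 : |m| * (|m⁻¹| * ((hi - lo) - mlen Y lo hi)) = (hi - lo) - mlen Y lo hi := by
    rw [← mul_assoc, abs_inv, mul_inv_cancel₀ hmpos.ne', one_mul]
  linarith

/-- Chord inequality for an increasing chord of a convex planar set. -/
lemma chord_inc {K : Set (ℝ × ℝ)} (hK : Convex ℝ K) {X Y : Set ℝ}
    (hY : MeasurableSet Y)
    (hmiss : ∀ p ∈ K, p.1 ∈ X → p.2 ∈ Y → False)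
    {s₁ t₁ s₂ t₂ : ℝ} (h₁ : (s₁, t₁) ∈ K) (h₂ : (s₂, t₂) ∈ K) (hs : s₁ ≤ s₂) (ht : t₁ ≤ t₂) :
    (t₂ - t₁) * mlen X s₁ s₂ + (s₂ - s₁) * mlen Y t₁ t₂ ≤ (s₂ - s₁) * (t₂ - t₁) := by
  rcases eq_or_lt_of_le hs with hs' | hs'
  · subst hs'
    simp [mlen_self]
  rcases eq_or_lt_of_le ht with ht' | ht'
  · subst ht'
    simp [mlen_self]
  have hds : 0 < s₂ - s₁ := by linarith
  have hdt : 0 < t₂ - t₁ := by linarith
  set m : ℝ := (t₂ - t₁) / (s₂ - s₁) with hm
  have hmpos : 0 < m := div_pos hdt hds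
  have key := chord_aux (X := X) (Y := Y) hY (s₁ := s₁) (s₂ := s₂) (lo := t₁) (hi := t₂)
    (m := m) (c := t₁ - m * s₁) hmpos.ne' ht
    (by
      intro s hs hsX
      have hval : m * s + (t₁ - m * s₁) = t₁ + m * (s - s₁) := by ring
      have h0 : 0 ≤ m * (s - s₁) := mul_nonneg hmpos.le (by linarith [hs.1])
      have h1 : m * (s - s₁) ≤ t₂ - t₁ := by
        have : m * (s - s₁) ≤ m * (s₂ - s₁) :=
          mul_le_mul_of_nonneg_left (by linarith [hs.2]) hmpos.le
        have h2 : m * (s₂ - s₁) = t₂ - t₁ := by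
          rw [hm]; field_simp
        linarith
      refine ⟨⟨by linarith, by linarith⟩, ?_⟩
      intro hy
      -- the point (s, φ s) lies on the segment, hence in K
      set a : ℝ := (s₂ - s) / (s₂ - s₁) with ha
      set b : ℝ := (s - s₁) / (s₂ - s₁) with hb
      have ha0 : 0 ≤ a := div_nonneg (by linarith [hs.2]) hds.le
      have hb0 : 0 ≤ b := div_nonneg (by linarith [hs.1]) hds.le
      have hab : a + b = 1 := by
        rw [ha, hb]; field_simp; ring
      have hmem := hK h₁ h₂ ha0 hb0 hab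
      have hpt : a • ((s₁, t₁) : ℝ × ℝ) + b • ((s₂, t₂) : ℝ × ℝ)
          = (s, m * s + (t₁ - m * s₁)) := by
        ext
        · simp only [Prod.fst_add, Prod.smul_fst, smul_eq_mul]
          rw [ha, hb]; field_simp; ring
        · simp only [Prod.snd_add, Prod.smul_snd, smul_eq_mul]
          rw [ha, hb, hm]; field_simp; ring
      rw [hpt] at hmem
      exact hmiss _ hmem hsX hy)
  rw [abs_of_pos hmpos] at key
  have h2 : m * (s₂ - s₁) = t₂ - t₁ := by
    rw [hm]; field_simp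
  have h3 := mul_le_mul_of_nonneg_left key hds.le
  have h4 : (s₂ - s₁) * (m * mlen X s₁ s₂ + mlen Y t₁ t₂)
      = (t₂ - t₁) * mlen X s₁ s₂ + (s₂ - s₁) * mlen Y t₁ t₂ := by
    rw [← h2]; ring
  linarith

/-- Chord inequality for a decreasing chord of a convex planar set. -/
lemma chord_dec {K : Set (ℝ × ℝ)} (hK : Convex ℝ K) {X Y : Set ℝ}
    (hY : MeasurableSet Y)
    (hmiss : ∀ p ∈ K, p.1 ∈ X → p.2 ∈ Y → False)
    {s₁ t₁ s₂ t₂ : ℝ} (h₁ : (s₁, t₁) ∈ K) (h₂ : (s₂, t₂) ∈ K) (hs : s₁ ≤ s₂) (ht : t₂ ≤ t₁) :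
    (t₁ - t₂) * mlen X s₁ s₂ + (s₂ - s₁) * mlen Y t₂ t₁ ≤ (s₂ - s₁) * (t₁ - t₂) := by
  rcases eq_or_lt_of_le hs with hs' | hs'
  · subst hs'
    simp [mlen_self]
  rcases eq_or_lt_of_le ht with ht' | ht'
  · subst ht'
    simp [mlen_self]
  have hds : 0 < s₂ - s₁ := by linarith
  have hdt : 0 < t₁ - t₂ := by linarith
  set m : ℝ := (t₂ - t₁) / (s₂ - s₁) with hm
  have hmneg : m < 0 := div_neg_of_neg_of_pos (by linarith) hds
  have h2 : m * (s₂ - s₁) = t₂ - t₁ := by
    rw [hm]; field_simp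
  have key := chord_aux (X := X) (Y := Y) hY (s₁ := s₁) (s₂ := s₂) (lo := t₂) (hi := t₁)
    (m := m) (c := t₁ - m * s₁) hmneg.ne ht
    (by
      intro s hs hsX
      have hval : m * s + (t₁ - m * s₁) = t₁ + m * (s - s₁) := by ring
      have h0 : m * (s - s₁) ≤ 0 := mul_nonpos_of_nonpos_of_nonneg hmneg.le (by linarith [hs.1])
      have h1 : t₂ - t₁ ≤ m * (s - s₁) := by
        have : m * (s₂ - s₁) ≤ m * (s - s₁) :=
          mul_le_mul_of_nonpos_left (by linarith [hs.2]) hmneg.le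
        linarith
      refine ⟨⟨by linarith, by linarith⟩, ?_⟩
      intro hy
      set a : ℝ := (s₂ - s) / (s₂ - s₁) with ha
      set b : ℝ := (s - s₁) / (s₂ - s₁) with hb
      have ha0 : 0 ≤ a := div_nonneg (by linarith [hs.2]) hds.le
      have hb0 : 0 ≤ b := div_nonneg (by linarith [hs.1]) hds.le
      have hab : a + b = 1 := by
        rw [ha, hb]; field_simp; ring
      have hmem := hK h₁ h₂ ha0 hb0 hab
      have hpt : a • ((s₁, t₁) : ℝ × ℝ) + b • ((s₂, t₂) : ℝ × ℝ)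
          = (s, m * s + (t₁ - m * s₁)) := by
        ext
        · simp only [Prod.fst_add, Prod.smul_fst, smul_eq_mul]
          rw [ha, hb]; field_simp; ring
        · simp only [Prod.snd_add, Prod.smul_snd, smul_eq_mul]
          rw [ha, hb, hm]; field_simp; ring
      rw [hpt] at hmem
      exact hmiss _ hmem hsX hy)
  rw [abs_of_neg hmneg] at key
  have h3 := mul_le_mul_of_nonneg_left key hds.le
  have h4 : (s₂ - s₁) * (-m * mlen X s₁ s₂ + mlen Y t₂ t₁)
      = (t₁ - t₂) * mlen X s₁ s₂ + (s₂ - s₁) * mlen Y t₂ t₁ := by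
    have : -m * (s₂ - s₁) = t₁ - t₂ := by linarith
    rw [← this]; ring
  linarith

end Vale.Agent.H65
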