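import Vale.Agent.H65.Chord

/-!
# The two-direction plank lemma for planar convex sets

If a convex planar set `K` touches the four sides of the unit square and a product set
`X × Y` misses `K`, then `|X ∩ [0,1]| + |Y ∩ [0,1]| ≤ 1`.  The proof is by explicit
positive combinations of chord inequalities.
-/

namespace Vale.Agent.H65

open MeasureTheory Set

/-- `Good K`: every measurable product set `X × Y` missing `K` satisfies
`|X ∩ [0,1]| + |Y ∩ [0,1]| ≤ 1`. -/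
def Good (K : Set (ℝ × ℝ)) : Prop :=
  ∀ X Y : Set ℝ, MeasurableSet X → MeasurableSet Y →
    (∀ p ∈ K, p.1 ∈ X → p.2 ∈ Y → False) → mlen X 0 1 + mlen Y 0 1 ≤ 1

/-- Corner case: `K` contains the corner `(0,0)` and points on the right and top sides. -/
lemma good_corner {K : Set (ℝ × ℝ)} (hK : Convex ℝ K) {a b : ℝ}
    (ha0 : 0 ≤ a) (ha1 : a ≤ 1) (hb0 : 0 ≤ b) (hb1 : b ≤ 1)
    (h0 : ((0 : ℝ), (0 : ℝ)) ∈ K) (h1 : ((1 : ℝ), b) ∈ K) (h2 : (a, (1 : ℝ)) ∈ K) :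
    Good K := by
  intro X Y hX hY hmiss
  have c1 := chord_inc hK hY hmiss h0 h1 zero_le_one hb0
  have c2 := chord_inc hK hY hmiss h0 h2 ha0 zero_le_one
  have c3 := chord_dec hK hY hmiss h2 h1 ha1 hb1
  have eX : mlen X 0 1 = mlen X 0 a + mlen X a 1 := mlen_add hX ha0 ha1
  have eY : mlen Y 0 1 = mlen Y 0 b + mlen Y b 1 := mlen_add hY hb0 hb1
  have hab : a * b ≤ 1 := by nlinarith
  rcases eq_or_lt_of_le hab with hab' | hab'
  · have hb : b = 1 := by nlinarith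
    subst hb
    have := mlen_nonneg Y 0 1
    linarith
  · have k1 := mul_le_mul_of_nonneg_left c1 (by linarith : (0 : ℝ) ≤ 1 - a)
    have k2 := mul_le_mul_of_nonneg_left c2 (by linarith : (0 : ℝ) ≤ 1 - b)
    rw [eX] at k1
    rw [eY] at k2
    have key : (1 - a * b) * (mlen X 0 1 + mlen Y 0 1) ≤ (1 - a * b) * 1 := by
      rw [eX, eY]
      nlinarith [k1, k2, c3]
    exact le_of_mul_le_mul_left key (by linarith)

/-- Anti-aligned case. -/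
lemma good_anti {K : Set (ℝ × ℝ)} (hK : Convex ℝ K) {a₁ a₂ b₁ b₂ : ℝ}
    (ha1 : 0 < a₁) (ha : a₁ ≤ a₂) (ha2 : a₂ < 1)
    (hb1 : 0 ≤ b₁) (hb : b₁ ≤ b₂) (hb2 : b₂ ≤ 1)
    (hL : ((0 : ℝ), b₂) ∈ K) (hR : ((1 : ℝ), b₁) ∈ K)
    (hB : (a₁, (0 : ℝ)) ∈ K) (hT : (a₂, (1 : ℝ)) ∈ K) :
    Good K := by
  intro X Y hX hY hmiss
  have hb20 : 0 ≤ b₂ := le_trans hb1 hb
  have hb11 : b₁ ≤ 1 := le_trans hb hb2
  have cSW := chord_dec hK hY hmiss hL hB ha1.le hb20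
  have cNW := chord_inc hK hY hmiss hL hT (by linarith) hb2
  have cSE := chord_inc hK hY hmiss hB hR (by linarith) hb1
  have cNE := chord_dec hK hY hmiss hT hR ha2.le hb11
  have cS1 := chord_inc hK hY hmiss hB hT ha zero_le_one
  have eX1 : mlen X 0 a₂ = mlen X 0 a₁ + mlen X a₁ a₂ := mlen_add hX ha1.le ha
  have eX2 : mlen X a₁ 1 = mlen X a₁ a₂ + mlen X a₂ 1 := mlen_add hX ha ha2.le
  have eX : mlen X 0 1 = mlen X 0 a₁ + mlen X a₁ 1 := mlen_add hX ha1.le (by linarith)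
  have eY1 : mlen Y 0 b₂ = mlen Y 0 b₁ + mlen Y b₁ b₂ := mlen_add hY hb1 hb
  have eY2 : mlen Y b₁ 1 = mlen Y b₁ b₂ + mlen Y b₂ 1 := mlen_add hY hb hb2
  have eY : mlen Y 0 1 = mlen Y 0 b₁ + mlen Y b₁ 1 := mlen_add hY hb1 hb11
  have hEs0 : 0 < a₂ * b₂ + a₁ * (1 - b₂) := by nlinarith
  have hEt0 : 0 < b₁ * (1 - a₂) + (1 - b₁) * (1 - a₁) := by nlinarith
  have hw1 : 0 ≤ a₂ * b₂ * (b₁ * (1 - a₂) + (1 - b₁) * (1 - a₁))
      - b₁ * (1 - a₂) * (a₂ * b₂ + a₁ * (1 - b₂)) := by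
    have h1 : a₁ * (1 - a₂) ≤ a₂ * (1 - a₁) := by nlinarith
    have h2 : b₁ * (1 - b₂) ≤ b₂ * (1 - b₁) := by nlinarith
    have h3 : 0 ≤ a₁ * (1 - a₂) := mul_nonneg ha1.le (by linarith)
    have h4 : 0 ≤ b₁ * (1 - b₂) := mul_nonneg hb1 (by linarith)
    have h5 : a₁ * (1 - a₂) * (b₁ * (1 - b₂)) ≤ a₂ * (1 - a₁) * (b₂ * (1 - b₁)) :=
      mul_le_mul h1 h2 h4 (le_trans h3 h1)
    nlinarith
  rw [eX1] at cNW
  rw [eX2] at cSE
  rw [eY1] at cSW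
  rw [eY2] at cNE
  rw [eY, eY2] at cS1
  have kSW := mul_le_mul_of_nonneg_left cSW (mul_nonneg (le_trans ha1.le ha) hEt0.le)
  have kNW := mul_le_mul_of_nonneg_left cNW (mul_nonneg ha1.le hEt0.le)
  have kSE := mul_le_mul_of_nonneg_left cSE
    (mul_nonneg (by linarith : (0 : ℝ) ≤ 1 - a₂) hEs0.le)
  have kNE := mul_le_mul_of_nonneg_left cNE
    (mul_nonneg (by linarith : (0 : ℝ) ≤ 1 - a₁) hEs0.le)
  have kS1 := mul_le_mul_of_nonneg_left cS1 hw1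
  have key : ((a₂ * b₂ + a₁ * (1 - b₂)) * (b₁ * (1 - a₂) + (1 - b₁) * (1 - a₁)))
      * (mlen X 0 1 + mlen Y 0 1)
      ≤ ((a₂ * b₂ + a₁ * (1 - b₂)) * (b₁ * (1 - a₂) + (1 - b₁) * (1 - a₁))) * 1 := by
    rw [eX, eX2, eY, eY2]
    linarith [kSW, kNW, kSE, kNE, kS1]
  exact le_of_mul_le_mul_left key (mul_pos hEs0 hEt0)

/-- Aligned case. -/
lemma good_aligned {K : Set (ℝ × ℝ)} (hK : Convex ℝ K) {a₁ a₂ b₁ b₂ : ℝ}
    (ha1 : 0 < a₁) (ha : a₁ ≤ a₂) (ha2 : a₂ < 1)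
    (hb2 : 0 < b₂) (hb : b₂ ≤ b₁) (hb1 : b₁ < 1)
    (hcond : a₁ * (1 - b₁) ≤ b₂ * (1 - a₂))
    (hL : ((0 : ℝ), b₂) ∈ K) (hR : ((1 : ℝ), b₁) ∈ K)
    (hB : (a₁, (0 : ℝ)) ∈ K) (hT : (a₂, (1 : ℝ)) ∈ K) :
    Good K := by
  intro X Y hX hY hmiss
  have hb10 : 0 < b₁ := lt_of_lt_of_le hb2 hb
  have ha11 : a₁ < 1 := lt_of_le_of_lt ha ha2
  have cSW := chord_dec hK hY hmiss hL hB ha1.le hb2.le
  have cSE := chord_inc hK hY hmiss hB hR ha11.le hb10.le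
  have cNE := chord_dec hK hY hmiss hT hR ha2.le hb1.le
  have cS1 := chord_inc hK hY hmiss hB hT ha zero_le_one
  have cS2 := chord_inc hK hY hmiss hL hR zero_le_one hb
  have eX2 : mlen X a₁ 1 = mlen X a₁ a₂ + mlen X a₂ 1 := mlen_add hX ha ha2.le
  have eX : mlen X 0 1 = mlen X 0 a₁ + mlen X a₁ 1 := mlen_add hX ha1.le ha11.le
  have eY1 : mlen Y 0 b₁ = mlen Y 0 b₂ + mlen Y b₂ b₁ := mlen_add hY hb2.le hb
  have eY : mlen Y 0 1 = mlen Y 0 b₁ + mlen Y b₁ 1 := mlen_add hY hb10.le hb1.le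
  have hD1 : 0 < b₁ * (1 - a₂) + (1 - a₁) * (1 - b₁) := by nlinarith
  have hD2 : 0 < a₁ * b₁ + (1 - a₁) * b₂ := by nlinarith
  have hwSE : 0 ≤ b₂ * (b₁ * (1 - a₂) + (1 - a₁) * (1 - b₁))
      - (1 - b₁) * (a₁ * b₁ + (1 - a₁) * b₂) := by
    have h1 : 0 ≤ b₁ * (b₂ * (1 - a₂) - a₁ * (1 - b₁)) :=
      mul_nonneg hb10.le (by linarith)
    have h2 : b₂ * (b₁ * (1 - a₂) + (1 - a₁) * (1 - b₁))
      - (1 - b₁) * (a₁ * b₁ + (1 - a₁) * b₂) = b₁ * (b₂ * (1 - a₂) - a₁ * (1 - b₁)) := by ring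
    linarith
  rw [eX2] at cSE
  rw [eY1] at cSE
  rw [eY, eY1] at cS1
  rw [eX, eX2] at cS2
  have kSW := mul_le_mul_of_nonneg_left cSW (mul_nonneg hb10.le hD1.le)
  have kNE := mul_le_mul_of_nonneg_left cNE (mul_nonneg hb10.le hD2.le)
  have kS1 := mul_le_mul_of_nonneg_left cS1
    (mul_nonneg (mul_nonneg hb10.le (by linarith : (0 : ℝ) ≤ 1 - b₁)) hD2.le)
  have kS2 := mul_le_mul_of_nonneg_left cS2 (mul_nonneg (mul_nonneg ha1.le hb10.le) hD1.le)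
  have kSE := mul_le_mul_of_nonneg_left cSE hwSE
  have key : (b₁ * (b₁ * (1 - a₂) + (1 - a₁) * (1 - b₁)) * (a₁ * b₁ + (1 - a₁) * b₂))
      * (mlen X 0 1 + mlen Y 0 1)
      ≤ (b₁ * (b₁ * (1 - a₂) + (1 - a₁) * (1 - b₁)) * (a₁ * b₁ + (1 - a₁) * b₂)) * 1 := by
    rw [eX, eX2, eY, eY1]
    linarith [kSW, kNE, kS1, kS2, kSE]
  exact le_of_mul_le_mul_left key (mul_pos (mul_pos hb10 hD1) hD2)

/-! ### Symmetries -/

lemma mlen_preimage_affine (X : Set ℝ) {m : ℝ} (hm : 0 < m) (c a b : ℝ) :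
    m * mlen ((fun s => m * s + c) ⁻¹' X) a b = mlen X (m * a + c) (m * b + c) := by
  have hset : (fun s => m * s + c) ⁻¹' X ∩ Icc a b
      = (fun s => m * s) ⁻¹' ((fun u => c + u) ⁻¹' (X ∩ Icc (m * a + c) (m * b + c))) := by
    ext s
    simp only [mem_inter_iff, mem_preimage, mem_Icc]
    constructor
    · rintro ⟨h1, h2, h3⟩
      refine ⟨by rwa [add_comm], ?_, ?_⟩
      · have := mul_le_mul_of_nonneg_left h2 hm.le
        linarith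
      · have := mul_le_mul_of_nonneg_left h3 hm.le
        linarith
    · rintro ⟨h1, h2, h3⟩
      refine ⟨by rwa [add_comm] at h1, ?_, ?_⟩
      · exact le_of_mul_le_mul_left (by linarith : m * a ≤ m * s) hm
      · exact le_of_mul_le_mul_left (by linarith : m * s ≤ m * b) hm
  unfold mlen
  rw [hset, Real.volume_preimage_mul_left hm.ne', measure_preimage_add, ENNReal.toReal_mul,
    ENNReal.toReal_ofReal (abs_nonneg _), abs_inv, abs_of_pos hm, ← mul_assoc,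
    mul_inv_cancel₀ hm.ne', one_mul]

lemma mlen_refl (X : Set ℝ) : mlen ((fun s => 1 - s) ⁻¹' X) 0 1 = mlen X 0 1 := by
  have hset : (fun s : ℝ => 1 - s) ⁻¹' X ∩ Icc 0 1
      = (fun s => (-1 : ℝ) * s) ⁻¹' ((fun u => 1 + u) ⁻¹' (X ∩ Icc 0 1)) := by
    ext s
    simp only [mem_inter_iff, mem_preimage, mem_Icc]
    have e : (1 : ℝ) + -1 * s = 1 - s := by ring
    rw [e]
    constructor
    · rintro ⟨h1, h2, h3⟩
      exact ⟨h1, by linarith, by linarith⟩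
    · rintro ⟨h1, h2, h3⟩
      exact ⟨h1, by linarith, by linarith⟩
  unfold mlen
  rw [hset, Real.volume_preimage_mul_left (by norm_num : (-1 : ℝ) ≠ 0), measure_preimage_add]
  simp

lemma good_swap {K : Set (ℝ × ℝ)} (h : Good (Prod.swap ⁻¹' K)) : Good K := by
  intro X Y hX hY hmiss
  have := h Y X hY hX (fun p hp h1 h2 => hmiss p.swap hp h2 h1)
  linarith

lemma good_reflx {K : Set (ℝ × ℝ)}
    (h : Good ((fun p : ℝ × ℝ => (1 - p.1, p.2)) ⁻¹' K)) : Good K := by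
  intro X Y hX hY hmiss
  have := h ((fun s => 1 - s) ⁻¹' X) Y (hX.preimage (measurable_const.sub measurable_id)) hY
    (fun p hp h1 h2 => hmiss (1 - p.1, p.2) hp h1 h2)
  rwa [mlen_refl] at this

lemma good_refly {K : Set (ℝ × ℝ)}
    (h : Good ((fun p : ℝ × ℝ => (p.1, 1 - p.2)) ⁻¹' K)) : Good K := by
  intro X Y hX hY hmiss
  have := h X ((fun s => 1 - s) ⁻¹' Y) hX (hY.preimage (measurable_const.sub measurable_id))
    (fun p hp h1 h2 => hmiss (p.1, 1 - p.2) hp h1 h2)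
  rwa [mlen_refl] at this

lemma convex_swap {K : Set (ℝ × ℝ)} (hK : Convex ℝ K) : Convex ℝ (Prod.swap ⁻¹' K) := by
  intro p hp q hq a b ha hb hab
  have h : a • p.swap + b • q.swap ∈ K := hK hp hq ha hb hab
  exact h

lemma convex_reflx {K : Set (ℝ × ℝ)} (hK : Convex ℝ K) :
    Convex ℝ ((fun p : ℝ × ℝ => (1 - p.1, p.2)) ⁻¹' K) := by
  intro p hp q hq a b ha hb hab
  have h : a • ((1 - p.1, p.2) : ℝ × ℝ) + b • ((1 - q.1, q.2) : ℝ × ℝ) ∈ K :=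
    hK hp hq ha hb hab
  have e : a • ((1 - p.1, p.2) : ℝ × ℝ) + b • ((1 - q.1, q.2) : ℝ × ℝ)
      = (1 - (a • p + b • q).1, (a • p + b • q).2) := by
    ext
    · simp only [Prod.fst_add, Prod.smul_fst, smul_eq_mul]
      linear_combination hab
    · simp
  rw [e] at h
  exact h

lemma convex_refly {K : Set (ℝ × ℝ)} (hK : Convex ℝ K) :
    Convex ℝ ((fun p : ℝ × ℝ => (p.1, 1 - p.2)) ⁻¹' K) := by
  intro p hp q hq a b ha hb hab
  have h : a • ((p.1, 1 - p.2) : ℝ × ℝ) + b • ((q.1, 1 - q.2) : ℝ × ℝ) ∈ K :=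
    hK hp hq ha hb hab
  have e : a • ((p.1, 1 - p.2) : ℝ × ℝ) + b • ((q.1, 1 - q.2) : ℝ × ℝ)
      = ((a • p + b • q).1, 1 - (a • p + b • q).2) := by
    ext
    · simp
    · simp only [Prod.snd_add, Prod.smul_snd, smul_eq_mul]
      linear_combination hab
  rw [e] at h
  exact h

/-! ### Dispatch -/

lemma good_aligned' {K : Set (ℝ × ℝ)} (hK : Convex ℝ K) {a₁ a₂ b₁ b₂ : ℝ}
    (ha1 : 0 < a₁) (ha : a₁ ≤ a₂) (ha2 : a₂ < 1)
    (hb2 : 0 < b₂) (hb : b₂ ≤ b₁) (hb1 : b₁ < 1)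
    (hL : ((0 : ℝ), b₂) ∈ K) (hR : ((1 : ℝ), b₁) ∈ K)
    (hB : (a₁, (0 : ℝ)) ∈ K) (hT : (a₂, (1 : ℝ)) ∈ K) :
    Good K := by
  by_cases hcond : a₁ * (1 - b₁) ≤ b₂ * (1 - a₂)
  · exact good_aligned hK ha1 ha ha2 hb2 hb hb1 hcond hL hR hB hT
  · rw [not_le] at hcond
    apply good_swap
    exact good_aligned (convex_swap hK) (a₁ := b₂) (a₂ := b₁) (b₁ := a₂) (b₂ := a₁)
      hb2 hb hb1 ha1 ha ha2 hcond.le
      (show ((0 : ℝ), a₁) ∈ Prod.swap ⁻¹' K from hB)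
      (show ((1 : ℝ), a₂) ∈ Prod.swap ⁻¹' K from hT)
      (show (b₂, (0 : ℝ)) ∈ Prod.swap ⁻¹' K from hL)
      (show (b₁, (1 : ℝ)) ∈ Prod.swap ⁻¹' K from hR)

lemma good_interior {K : Set (ℝ × ℝ)} (hK : Convex ℝ K) {a₁ a₂ b₁ b₂ : ℝ}
    (ha1 : 0 < a₁) (ha1' : a₁ < 1) (ha2 : 0 < a₂) (ha2' : a₂ < 1)
    (hb1 : 0 < b₁) (hb1' : b₁ < 1) (hb2 : 0 < b₂) (hb2' : b₂ < 1)
    (hL : ((0 : ℝ), b₂) ∈ K) (hR : ((1 : ℝ), b₁) ∈ K)
    (hB : (a₁, (0 : ℝ)) ∈ K) (hT : (a₂, (1 : ℝ)) ∈ K) :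
    Good K := by
  rcases le_total a₁ a₂ with ha | ha <;> rcases le_total b₁ b₂ with hb | hb
  · exact good_anti hK ha1 ha ha2' hb1.le hb hb2'.le hL hR hB hT
  · exact good_aligned' hK ha1 ha ha2' hb2 hb hb1' hL hR hB hT
  · apply good_reflx
    exact good_aligned' (convex_reflx hK) (a₁ := 1 - a₁) (a₂ := 1 - a₂) (b₁ := b₂) (b₂ := b₁)
      (by linarith) (by linarith) (by linarith) hb1 hb hb2'
      (show ((1 : ℝ) - 0, b₁) ∈ K by rw [sub_zero]; exact hR)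
      (show ((1 : ℝ) - 1, b₂) ∈ K by rw [sub_self]; exact hL)
      (show ((1 : ℝ) - (1 - a₁), (0 : ℝ)) ∈ K by rw [sub_sub_cancel]; exact hB)
      (show ((1 : ℝ) - (1 - a₂), (1 : ℝ)) ∈ K by rw [sub_sub_cancel]; exact hT)
  · apply good_swap
    exact good_anti (convex_swap hK) (a₁ := b₂) (a₂ := b₁) (b₁ := a₂) (b₂ := a₁)
      hb2 hb hb1' ha2.le ha ha1'.le
      (show ((0 : ℝ), a₁) ∈ Prod.swap ⁻¹' K from hB)
      (show ((1 : ℝ), a₂) ∈ Prod.swap ⁻¹' K from hT)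
      (show (b₂, (0 : ℝ)) ∈ Prod.swap ⁻¹' K from hL)
      (show (b₁, (1 : ℝ)) ∈ Prod.swap ⁻¹' K from hR)

/-- The planar lemma on the unit square: a convex set touching all four sides of the unit
square cannot be missed by a product set `X × Y` with `|X| + |Y| > 1`. -/
theorem good_of_four_points {K : Set (ℝ × ℝ)} (hK : Convex ℝ K) {a₁ a₂ b₁ b₂ : ℝ}
    (ha1 : 0 ≤ a₁) (ha1' : a₁ ≤ 1) (ha2 : 0 ≤ a₂) (ha2' : a₂ ≤ 1)
    (hb1 : 0 ≤ b₁) (hb1' : b₁ ≤ 1) (hb2 : 0 ≤ b₂) (hb2' : b₂ ≤ 1)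
    (hL : ((0 : ℝ), b₂) ∈ K) (hR : ((1 : ℝ), b₁) ∈ K)
    (hB : (a₁, (0 : ℝ)) ∈ K) (hT : (a₂, (1 : ℝ)) ∈ K) :
    Good K := by
  by_cases c00 : a₁ = 0 ∨ b₂ = 0
  · have h0 : ((0 : ℝ), (0 : ℝ)) ∈ K := by
      rcases c00 with h | h
      · rw [h] at hB; exact hB
      · rw [h] at hL; exact hL
    exact good_corner hK ha2 ha2' hb1 hb1' h0 hR hT
  by_cases c10 : a₁ = 1 ∨ b₁ = 0
  · have h0 : ((1 : ℝ), (0 : ℝ)) ∈ K := by
      rcases c10 with h | h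
      · rw [h] at hB; exact hB
      · rw [h] at hR; exact hR
    apply good_reflx
    exact good_corner (convex_reflx hK) (a := 1 - a₂) (b := b₂)
      (by linarith) (by linarith) hb2 hb2'
      (show ((1 : ℝ) - 0, (0 : ℝ)) ∈ K by rw [sub_zero]; exact h0)
      (show ((1 : ℝ) - 1, b₂) ∈ K by rw [sub_self]; exact hL)
      (show ((1 : ℝ) - (1 - a₂), (1 : ℝ)) ∈ K by rw [sub_sub_cancel]; exact hT)
  by_cases c01 : a₂ = 0 ∨ b₂ = 1
  · have h0 : ((0 : ℝ), (1 : ℝ)) ∈ K := by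
      rcases c01 with h | h
      · rw [h] at hT; exact hT
      · rw [h] at hL; exact hL
    apply good_refly
    exact good_corner (convex_refly hK) (a := a₁) (b := 1 - b₁)
      ha1 ha1' (by linarith) (by linarith)
      (show ((0 : ℝ), (1 : ℝ) - 0) ∈ K by rw [sub_zero]; exact h0)
      (show ((1 : ℝ), (1 : ℝ) - (1 - b₁)) ∈ K by rw [sub_sub_cancel]; exact hR)
      (show (a₁, (1 : ℝ) - 1) ∈ K by rw [sub_self]; exact hB)
  by_cases c11 : a₂ = 1 ∨ b₁ = 1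
  · have h0 : ((1 : ℝ), (1 : ℝ)) ∈ K := by
      rcases c11 with h | h
      · rw [h] at hT; exact hT
      · rw [h] at hR; exact hR
    apply good_reflx
    apply good_refly
    exact good_corner (convex_refly (convex_reflx hK)) (a := 1 - a₁) (b := 1 - b₂)
      (by linarith) (by linarith) (by linarith) (by linarith)
      (show ((1 : ℝ) - 0, (1 : ℝ) - 0) ∈ K by rw [sub_zero]; exact h0)
      (show ((1 : ℝ) - 1, (1 : ℝ) - (1 - b₂)) ∈ K by rw [sub_self, sub_sub_cancel]; exact hL)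
      (show ((1 : ℝ) - (1 - a₁), (1 : ℝ) - 1) ∈ K by rw [sub_self, sub_sub_cancel]; exact hB)
  rw [not_or] at c00 c10 c01 c11
  exact good_interior hK (lt_of_le_of_ne ha1 (Ne.symm c00.1)) (lt_of_le_of_ne ha1' c10.1)
    (lt_of_le_of_ne ha2 (Ne.symm c01.1)) (lt_of_le_of_ne ha2' c11.1)
    (lt_of_le_of_ne hb1 (Ne.symm c10.2)) (lt_of_le_of_ne hb1' c11.2)
    (lt_of_le_of_ne hb2 (Ne.symm c00.2)) (lt_of_le_of_ne hb2' c01.2) hL hR hB hT

/-- The planar lemma in a general box `[x0,x1] × [y0,y1]`. -/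
theorem slice_ineq {K : Set (ℝ × ℝ)} (hK : Convex ℝ K) {x0 x1 y0 y1 : ℝ}
    (hx : x0 ≤ x1) (hy : y0 ≤ y1) {a₁ a₂ b₁ b₂ : ℝ}
    (ha1 : a₁ ∈ Icc x0 x1) (ha2 : a₂ ∈ Icc x0 x1)
    (hb1 : b₁ ∈ Icc y0 y1) (hb2 : b₂ ∈ Icc y0 y1)
    (hL : (x0, b₂) ∈ K) (hR : (x1, b₁) ∈ K) (hB : (a₁, y0) ∈ K) (hT : (a₂, y1) ∈ K)
    {X Y : Set ℝ} (hX : MeasurableSet X) (hY : MeasurableSet Y)
    (hmiss : ∀ p ∈ K, p.1 ∈ X → p.2 ∈ Y → False) :
    mlen X x0 x1 * (y1 - y0) + mlen Y y0 y1 * (x1 - x0) ≤ (x1 - x0) * (y1 - y0) := by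
  rcases eq_or_lt_of_le hx with hx' | hx'
  · subst hx'
    simp [mlen_self]
  rcases eq_or_lt_of_le hy with hy' | hy'
  · subst hy'
    simp [mlen_self]
  have hLx : 0 < x1 - x0 := by linarith
  have hLy : 0 < y1 - y0 := by linarith
  have hK' : Convex ℝ ((fun p : ℝ × ℝ => ((x1 - x0) * p.1 + x0, (y1 - y0) * p.2 + y0)) ⁻¹' K) := by
    intro p hp q hq a b ha hb hab
    have h : a • (((x1 - x0) * p.1 + x0, (y1 - y0) * p.2 + y0) : ℝ × ℝ)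
        + b • (((x1 - x0) * q.1 + x0, (y1 - y0) * q.2 + y0) : ℝ × ℝ) ∈ K := hK hp hq ha hb hab
    have e : a • (((x1 - x0) * p.1 + x0, (y1 - y0) * p.2 + y0) : ℝ × ℝ)
        + b • (((x1 - x0) * q.1 + x0, (y1 - y0) * q.2 + y0) : ℝ × ℝ)
        = ((x1 - x0) * (a • p + b • q).1 + x0, (y1 - y0) * (a • p + b • q).2 + y0) := by
      ext
      · simp only [Prod.fst_add, Prod.smul_fst, smul_eq_mul]
        linear_combination x0 * hab
      · simp only [Prod.snd_add, Prod.smul_snd, smul_eq_mul]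
        linear_combination y0 * hab
    rw [e] at h
    exact h
  have hgood : Good ((fun p : ℝ × ℝ => ((x1 - x0) * p.1 + x0, (y1 - y0) * p.2 + y0)) ⁻¹' K) := by
    refine good_of_four_points hK' (a₁ := (a₁ - x0) / (x1 - x0)) (a₂ := (a₂ - x0) / (x1 - x0))
      (b₁ := (b₁ - y0) / (y1 - y0)) (b₂ := (b₂ - y0) / (y1 - y0))
      (div_nonneg (by linarith [ha1.1]) hLx.le) ((div_le_one hLx).mpr (by linarith [ha1.2]))
      (div_nonneg (by linarith [ha2.1]) hLx.le) ((div_le_one hLx).mpr (by linarith [ha2.2]))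
      (div_nonneg (by linarith [hb1.1]) hLy.le) ((div_le_one hLy).mpr (by linarith [hb1.2]))
      (div_nonneg (by linarith [hb2.1]) hLy.le) ((div_le_one hLy).mpr (by linarith [hb2.2]))
      ?_ ?_ ?_ ?_
    · show ((x1 - x0) * 0 + x0, (y1 - y0) * ((b₂ - y0) / (y1 - y0)) + y0) ∈ K
      have e1 : (x1 - x0) * 0 + x0 = x0 := by ring
      have e2 : (y1 - y0) * ((b₂ - y0) / (y1 - y0)) + y0 = b₂ := by field_simp; ring
      rw [e1, e2]
      exact hL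
    · show ((x1 - x0) * 1 + x0, (y1 - y0) * ((b₁ - y0) / (y1 - y0)) + y0) ∈ K
      have e1 : (x1 - x0) * 1 + x0 = x1 := by ring
      have e2 : (y1 - y0) * ((b₁ - y0) / (y1 - y0)) + y0 = b₁ := by field_simp; ring
      rw [e1, e2]
      exact hR
    · show ((x1 - x0) * ((a₁ - x0) / (x1 - x0)) + x0, (y1 - y0) * 0 + y0) ∈ K
      have e1 : (x1 - x0) * ((a₁ - x0) / (x1 - x0)) + x0 = a₁ := by field_simp; ring
      have e2 : (y1 - y0) * 0 + y0 = y0 := by ring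
      rw [e1, e2]
      exact hB
    · show ((x1 - x0) * ((a₂ - x0) / (x1 - x0)) + x0, (y1 - y0) * 1 + y0) ∈ K
      have e1 : (x1 - x0) * ((a₂ - x0) / (x1 - x0)) + x0 = a₂ := by field_simp; ring
      have e2 : (y1 - y0) * 1 + y0 = y1 := by ring
      rw [e1, e2]
      exact hT
  have hmain := hgood ((fun s => (x1 - x0) * s + x0) ⁻¹' X) ((fun t => (y1 - y0) * t + y0) ⁻¹' Y)
    (hX.preimage (by fun_prop)) (hY.preimage (by fun_prop))
    (fun p hp h1 h2 => hmiss ((x1 - x0) * p.1 + x0, (y1 - y0) * p.2 + y0) hp h1 h2)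
  have e1 := mlen_preimage_affine X hLx x0 0 1
  have e2 := mlen_preimage_affine Y hLy y0 0 1
  have e1' : (x1 - x0) * 0 + x0 = x0 := by ring
  have e1'' : (x1 - x0) * 1 + x0 = x1 := by ring
  have e2' : (y1 - y0) * 0 + y0 = y0 := by ring
  have e2'' : (y1 - y0) * 1 + y0 = y1 := by ring
  rw [e1', e1''] at e1
  rw [e2', e2''] at e2
  rw [← e1, ← e2]
  have h3 := mul_le_mul_of_nonneg_left hmain (mul_pos hLx hLy).le
  linarith

end Vale.Agent.H65
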