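import Mathlib

/-!
# Concave densities dominate a tent

A nonnegative concave function on `[z₀, z₁]` with integral `a` is at least `a` times the tent
function `tent z₀ z₁`, whose integral is `1/2`.
-/

namespace Vale.Agent.H65

open MeasureTheory Set

/-- The tent function on `[z₀, z₁]`, with integral `1/2`. -/
noncomputable def tent (z₀ z₁ z : ℝ) : ℝ := 2 / (z₁ - z₀) ^ 2 * min (z - z₀) (z₁ - z)

lemma tent_nonneg {z₀ z₁ z : ℝ} (hz : z ∈ Icc z₀ z₁) : 0 ≤ tent z₀ z₁ z := by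
  unfold tent
  apply mul_nonneg
  · positivity
  · exact le_min (by linarith [hz.1]) (by linarith [hz.2])

lemma concave_mid {f : ℝ → ℝ} {z₀ z₁ a : ℝ} (hz : z₀ < z₁)
    (hconc : ∀ z ∈ Icc z₀ z₁, ∀ w ∈ Icc z₀ z₁, ∀ s t : ℝ, 0 ≤ s → 0 ≤ t → s + t = 1 →
      s * f z + t * f w ≤ f (s * z + t * w))
    (hnn : ∀ z ∈ Icc z₀ z₁, 0 ≤ f z)
    (hout : ∀ z, z ∉ Icc z₀ z₁ → f z = 0)
    (hmeas : Measurable f)
    (hint : ∫⁻ z, ENNReal.ofReal (f z) = ENNReal.ofReal a) :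
    a ≤ f ((z₀ + z₁) / 2) * (z₁ - z₀) := by
  have hm : Measurable (fun z => ENNReal.ofReal (f z)) := ENNReal.measurable_ofReal.comp hmeas
  have hmid : (z₀ + z₁) / 2 ∈ Icc z₀ z₁ := ⟨by linarith, by linarith⟩
  have hfm : 0 ≤ f ((z₀ + z₁) / 2) := hnn _ hmid
  have h1 : ∫⁻ z, ENNReal.ofReal (f (z₀ + z₁ - z)) = ENNReal.ofReal a := by
    rw [lintegral_sub_left_eq_self (fun z => ENNReal.ofReal (f z)) (z₀ + z₁)]
    exact hint
  have h2 : ∫⁻ z, (ENNReal.ofReal (f z) + ENNReal.ofReal (f (z₀ + z₁ - z)))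
      = ENNReal.ofReal a + ENNReal.ofReal a := by
    rw [lintegral_add_left hm, hint, h1]
  have h3 : ∫⁻ z, (ENNReal.ofReal (f z) + ENNReal.ofReal (f (z₀ + z₁ - z)))
      ≤ ∫⁻ z, indicator (Icc z₀ z₁) (fun _ => ENNReal.ofReal (2 * f ((z₀ + z₁) / 2))) z := by
    apply lintegral_mono
    intro z
    by_cases hzI : z ∈ Icc z₀ z₁
    · have hzI' : z₀ + z₁ - z ∈ Icc z₀ z₁ := ⟨by linarith [hzI.2], by linarith [hzI.1]⟩
      have hc := hconc z hzI (z₀ + z₁ - z) hzI' (1 / 2) (1 / 2) (by norm_num) (by norm_num)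
        (by norm_num)
      have e : (1 / 2 : ℝ) * z + 1 / 2 * (z₀ + z₁ - z) = (z₀ + z₁) / 2 := by ring
      rw [e] at hc
      simp only [indicator_of_mem hzI]
      rw [← ENNReal.ofReal_add (hnn z hzI) (hnn _ hzI')]
      exact ENNReal.ofReal_le_ofReal (by linarith)
    · have hzI' : z₀ + z₁ - z ∉ Icc z₀ z₁ := by
        intro h
        exact hzI ⟨by linarith [h.2], by linarith [h.1]⟩
      simp only [hout z hzI, hout _ hzI']
      simp
  have h4 : ∫⁻ z, indicator (Icc z₀ z₁) (fun _ => ENNReal.ofReal (2 * f ((z₀ + z₁) / 2))) z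
      = ENNReal.ofReal (2 * f ((z₀ + z₁) / 2) * (z₁ - z₀)) := by
    rw [lintegral_indicator measurableSet_Icc, setLIntegral_const, Real.volume_Icc,
      ← ENNReal.ofReal_mul (by linarith)]
  rcases le_or_gt a 0 with ha | ha
  · have : 0 ≤ f ((z₀ + z₁) / 2) * (z₁ - z₀) := mul_nonneg hfm (by linarith)
    linarith
  · rw [h2, h4, ← ENNReal.ofReal_add ha.le ha.le] at h3
    have h5 := (ENNReal.ofReal_le_ofReal_iff
      (mul_nonneg (by linarith) (by linarith : (0 : ℝ) ≤ z₁ - z₀))).mp h3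
    linarith

lemma concave_tent {f : ℝ → ℝ} {z₀ z₁ a : ℝ} (hz : z₀ < z₁) (ha : 0 ≤ a)
    (hconc : ∀ z ∈ Icc z₀ z₁, ∀ w ∈ Icc z₀ z₁, ∀ s t : ℝ, 0 ≤ s → 0 ≤ t → s + t = 1 →
      s * f z + t * f w ≤ f (s * z + t * w))
    (hnn : ∀ z ∈ Icc z₀ z₁, 0 ≤ f z)
    (hout : ∀ z, z ∉ Icc z₀ z₁ → f z = 0)
    (hmeas : Measurable f)
    (hint : ∫⁻ z, ENNReal.ofReal (f z) = ENNReal.ofReal a) :
    ∀ z ∈ Icc z₀ z₁, a * tent z₀ z₁ z ≤ f z := by
  intro z hzI
  have hmidle := concave_mid hz hconc hnn hout hmeas hint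
  have hL : 0 < z₁ - z₀ := by linarith
  have hmid : (z₀ + z₁) / 2 ∈ Icc z₀ z₁ := ⟨by linarith, by linarith⟩
  have hz0 : z₀ ∈ Icc z₀ z₁ := ⟨le_refl _, hz.le⟩
  have hz1 : z₁ ∈ Icc z₀ z₁ := ⟨hz.le, le_refl _⟩
  have hfm : a / (z₁ - z₀) ≤ f ((z₀ + z₁) / 2) := by
    rw [div_le_iff₀ hL]
    exact hmidle
  have hc0 : 0 ≤ 2 * a / (z₁ - z₀) ^ 2 := by positivity
  have htent : a * tent z₀ z₁ z = 2 * a / (z₁ - z₀) ^ 2 * min (z - z₀) (z₁ - z) := by
    unfold tent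
    ring
  rw [htent]
  rcases le_total z ((z₀ + z₁) / 2) with hle | hle
  · -- z = s z₀ + t m, t = 2 (z - z₀) / L
    have ht0 : 0 ≤ 2 * (z - z₀) / (z₁ - z₀) := div_nonneg (by linarith [hzI.1]) hL.le
    have ht1 : 2 * (z - z₀) / (z₁ - z₀) ≤ 1 := (div_le_one hL).mpr (by linarith)
    have hc := hconc z₀ hz0 ((z₀ + z₁) / 2) hmid (1 - 2 * (z - z₀) / (z₁ - z₀))
      (2 * (z - z₀) / (z₁ - z₀)) (by linarith) ht0 (by ring)
    have e : (1 - 2 * (z - z₀) / (z₁ - z₀)) * z₀ + 2 * (z - z₀) / (z₁ - z₀) * ((z₀ + z₁) / 2)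
        = z := by
      field_simp
      ring
    rw [e] at hc
    have h1 : 0 ≤ (1 - 2 * (z - z₀) / (z₁ - z₀)) * f z₀ :=
      mul_nonneg (by linarith) (hnn z₀ hz0)
    have h2 : 2 * (z - z₀) / (z₁ - z₀) * (a / (z₁ - z₀))
        ≤ 2 * (z - z₀) / (z₁ - z₀) * f ((z₀ + z₁) / 2) :=
      mul_le_mul_of_nonneg_left hfm ht0
    have h3 : 2 * a / (z₁ - z₀) ^ 2 * min (z - z₀) (z₁ - z)
        ≤ 2 * a / (z₁ - z₀) ^ 2 * (z - z₀) :=
      mul_le_mul_of_nonneg_left (min_le_left _ _) hc0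
    have h4 : 2 * a / (z₁ - z₀) ^ 2 * (z - z₀)
        = 2 * (z - z₀) / (z₁ - z₀) * (a / (z₁ - z₀)) := by
      field_simp
    linarith
  · have ht0 : 0 ≤ 2 * (z₁ - z) / (z₁ - z₀) := div_nonneg (by linarith [hzI.2]) hL.le
    have ht1 : 2 * (z₁ - z) / (z₁ - z₀) ≤ 1 := (div_le_one hL).mpr (by linarith)
    have hc := hconc ((z₀ + z₁) / 2) hmid z₁ hz1 (2 * (z₁ - z) / (z₁ - z₀))
      (1 - 2 * (z₁ - z) / (z₁ - z₀)) ht0 (by linarith) (by ring)
    have e : 2 * (z₁ - z) / (z₁ - z₀) * ((z₀ + z₁) / 2) + (1 - 2 * (z₁ - z) / (z₁ - z₀)) * z₁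
        = z := by
      field_simp
      ring
    rw [e] at hc
    have h1 : 0 ≤ (1 - 2 * (z₁ - z) / (z₁ - z₀)) * f z₁ :=
      mul_nonneg (by linarith) (hnn z₁ hz1)
    have h2 : 2 * (z₁ - z) / (z₁ - z₀) * (a / (z₁ - z₀))
        ≤ 2 * (z₁ - z) / (z₁ - z₀) * f ((z₀ + z₁) / 2) :=
      mul_le_mul_of_nonneg_left hfm ht0
    have h3 : 2 * a / (z₁ - z₀) ^ 2 * min (z - z₀) (z₁ - z)
        ≤ 2 * a / (z₁ - z₀) ^ 2 * (z₁ - z) :=
      mul_le_mul_of_nonneg_left (min_le_right _ _) hc0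
    have h4 : 2 * a / (z₁ - z₀) ^ 2 * (z₁ - z)
        = 2 * (z₁ - z) / (z₁ - z₀) * (a / (z₁ - z₀)) := by
      field_simp
    linarith

lemma lintegral_tent {z₀ z₁ : ℝ} (hz : z₀ < z₁) :
    ∫⁻ z in Icc z₀ z₁, ENNReal.ofReal (tent z₀ z₁ z) = 1 / 2 := by
  have hL : 0 < z₁ - z₀ := by linarith
  have hcont : Continuous (tent z₀ z₁) := by
    unfold tent
    fun_prop
  have h1 : ∫⁻ z in Icc z₀ z₁, ENNReal.ofReal (tent z₀ z₁ z)
      = ENNReal.ofReal (∫ z in Icc z₀ z₁, tent z₀ z₁ z) := by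
    rw [ofReal_integral_eq_lintegral_ofReal]
    · exact hcont.integrableOn_Icc
    · exact (ae_restrict_iff' measurableSet_Icc).mpr (ae_of_all _ (fun z hz => tent_nonneg hz))
  rw [h1, integral_Icc_eq_integral_Ioc, ← intervalIntegral.integral_of_le hz.le]
  have h2 : ∫ z in z₀..z₁, tent z₀ z₁ z = 1 / 2 := by
    rw [← intervalIntegral.integral_add_adjacent_intervals (b := (z₀ + z₁) / 2)
      (hcont.intervalIntegrable _ _) (hcont.intervalIntegrable _ _)]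
    have e1 : ∫ z in z₀..(z₀ + z₁) / 2, tent z₀ z₁ z
        = ∫ z in z₀..(z₀ + z₁) / 2, 2 / (z₁ - z₀) ^ 2 * (z - z₀) := by
      apply intervalIntegral.integral_congr
      intro z hz'
      rw [uIcc_of_le (by linarith)] at hz'
      simp only [tent]
      rw [min_eq_left (by linarith [hz'.2])]
    have e2 : ∫ z in (z₀ + z₁) / 2..z₁, tent z₀ z₁ z
        = ∫ z in (z₀ + z₁) / 2..z₁, 2 / (z₁ - z₀) ^ 2 * (z₁ - z) := by
      apply intervalIntegral.integral_congr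
      intro z hz'
      rw [uIcc_of_le (by linarith)] at hz'
      simp only [tent]
      rw [min_eq_right (by linarith [hz'.1])]
    rw [e1, e2, intervalIntegral.integral_const_mul, intervalIntegral.integral_const_mul,
      intervalIntegral.integral_sub intervalIntegral.intervalIntegrable_id
        intervalIntegrable_const,
      intervalIntegral.integral_sub intervalIntegrable_const
        intervalIntegral.intervalIntegrable_id,
      integral_id, integral_id, intervalIntegral.integral_const, intervalIntegral.integral_const]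
    simp only [smul_eq_mul]
    field_simp
    ring
  rw [h2]
  rw [ENNReal.ofReal_div_of_pos (by norm_num)]
  simp

end Vale.Agent.H65
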