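import Vale.Agent.H65.Slice
import Vale.Agent.H65.Tent

/-!
# Covering a convex body by cylinders in two directions

The main theorem `two_cylinders`: if a convex body in `ℝ³` is covered by two cylinders whose
generators are parallel to the first and to the second coordinate axis, then the sum of the
relative base areas is at least `1/2`.
-/

namespace Vale.Agent.H65

open MeasureTheory Set
open scoped ENNReal

/-- Section of a planar set at height `z` (the second coordinate). -/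
def sec (P : Set (ℝ × ℝ)) (z : ℝ) : Set ℝ := (fun y => (y, z)) ⁻¹' P

lemma sec_convex {P : Set (ℝ × ℝ)} (hP : Convex ℝ P) (z : ℝ) : Convex ℝ (sec P z) := by
  intro y hy y' hy' s t hs ht hst
  have h : s • ((y, z) : ℝ × ℝ) + t • ((y', z) : ℝ × ℝ) ∈ P := hP hy hy' hs ht hst
  have e : s • ((y, z) : ℝ × ℝ) + t • ((y', z) : ℝ × ℝ) = (s • y + t • y', z) := by
    ext
    · simp
    · simp only [Prod.snd_add, Prod.smul_snd, smul_eq_mul]
      linear_combination z * hst
  rw [e] at h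
  exact h

lemma sec_compact {P : Set (ℝ × ℝ)} (hP : IsCompact P) (z : ℝ) : IsCompact (sec P z) := by
  have h1 : IsCompact (P ∩ (Prod.snd ⁻¹' {z})) :=
    hP.inter_right (isClosed_singleton.preimage continuous_snd)
  have h2 : sec P z = Prod.fst '' (P ∩ (Prod.snd ⁻¹' {z})) := by
    ext y
    constructor
    · intro hy
      exact ⟨(y, z), ⟨hy, rfl⟩, rfl⟩
    · rintro ⟨q, ⟨hq, hqz⟩, rfl⟩
      have hqz' : q.2 = z := hqz
      have : (q.1, z) = q := by rw [← hqz']
      show (q.1, z) ∈ P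
      rw [this]
      exact hq
  rw [h2]
  exact h1.image continuous_fst

lemma sec_interval {P : Set (ℝ × ℝ)} (hPc : Convex ℝ P) (hPk : IsCompact P) {z : ℝ}
    (hne : (sec P z).Nonempty) : ∃ l h, l ≤ h ∧ sec P z = Icc l h := by
  have hconn : IsConnected (sec P z) := ⟨hne, (sec_convex hPc z).isPreconnected⟩
  have h := eq_Icc_of_connected_compact hconn (sec_compact hPk z)
  refine ⟨sInf (sec P z), sSup (sec P z), ?_, h⟩
  obtain ⟨y, hy⟩ := hne
  rw [h] at hy
  exact le_trans hy.1 hy.2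

lemma volume_eq_lintegral_sec {P : Set (ℝ × ℝ)} (hP : MeasurableSet P) :
    volume P = ∫⁻ z, volume (sec P z) := by
  rw [Measure.volume_eq_prod, Measure.prod_apply_symm hP]
  rfl

lemma measurable_volume_sec {P : Set (ℝ × ℝ)} (hP : MeasurableSet P) :
    Measurable (fun z => volume (sec P z)) := measurable_measure_prodMk_right hP

lemma measurableSet_sec {P : Set (ℝ × ℝ)} (hP : MeasurableSet P) (z : ℝ) :
    MeasurableSet (sec P z) := measurable_prodMk_right hP

lemma mlen_compl {S : Set ℝ} (hS : MeasurableSet S) {a b : ℝ} (hab : a ≤ b) :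
    mlen Sᶜ a b = (b - a) - mlen S a b := by
  unfold mlen
  have h := measure_inter_add_sdiff (μ := volume) (Icc a b) hS
  have e1 : Sᶜ ∩ Icc a b = Icc a b \ S := by
    ext x
    simp [and_comm]
  have e2 : S ∩ Icc a b = Icc a b ∩ S := inter_comm _ _
  rw [e1, e2]
  have h' : (volume (Icc a b ∩ S)).toReal + (volume (Icc a b \ S)).toReal = b - a := by
    rw [← ENNReal.toReal_add (lt_of_le_of_lt (measure_mono inter_subset_left) (by simp)).ne
      (lt_of_le_of_lt (measure_mono sdiff_subset) (by simp)).ne, h, Real.volume_Icc,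
      ENNReal.toReal_ofReal (by linarith)]
  linarith

/-- The section-length function of a planar convex body dominates the tent. -/
lemma section_tent {P : Set (ℝ × ℝ)} (hPc : Convex ℝ P) (hPk : IsCompact P) {z₀ z₁ : ℝ}
    (hz : z₀ < z₁) (hne : ∀ z, (sec P z).Nonempty ↔ z ∈ Icc z₀ z₁) :
    ∀ z ∈ Icc z₀ z₁, (volume P).toReal * tent z₀ z₁ z ≤ (volume (sec P z)).toReal := by
  have hPm : MeasurableSet P := hPk.isClosed.measurableSet
  have hfin : ∀ z, volume (sec P z) ≠ ⊤ := fun z => (sec_compact hPk z).measure_lt_top.ne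
  apply concave_tent hz ENNReal.toReal_nonneg
  · intro z hzI w hwI s t hs ht hst
    obtain ⟨lz, hz', hlz, ez⟩ := sec_interval hPc hPk ((hne z).mpr hzI)
    obtain ⟨lw, hw', hlw, ew⟩ := sec_interval hPc hPk ((hne w).mpr hwI)
    have h1 : (lz, z) ∈ P := by
      have : lz ∈ sec P z := by
        rw [ez]
        exact left_mem_Icc.mpr hlz
      exact this
    have h2 : (lw, w) ∈ P := by
      have : lw ∈ sec P w := by
        rw [ew]
        exact left_mem_Icc.mpr hlw
      exact this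
    have h3 : (hz', z) ∈ P := by
      have : hz' ∈ sec P z := by
        rw [ez]
        exact right_mem_Icc.mpr hlz
      exact this
    have h4 : (hw', w) ∈ P := by
      have : hw' ∈ sec P w := by
        rw [ew]
        exact right_mem_Icc.mpr hlw
      exact this
    have hl : s * lz + t * lw ∈ sec P (s * z + t * w) := by
      have h : s • ((lz, z) : ℝ × ℝ) + t • ((lw, w) : ℝ × ℝ) ∈ P := hPc h1 h2 hs ht hst
      exact h
    have hh : s * hz' + t * hw' ∈ sec P (s * z + t * w) := by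
      have h : s • ((hz', z) : ℝ × ℝ) + t • ((hw', w) : ℝ × ℝ) ∈ P := hPc h3 h4 hs ht hst
      exact h
    obtain ⟨lu, hu, hlu, eu⟩ := sec_interval hPc hPk ⟨_, hl⟩
    rw [eu] at hl hh
    rw [ez, ew, eu, Real.volume_Icc, Real.volume_Icc, Real.volume_Icc,
      ENNReal.toReal_ofReal (by linarith), ENNReal.toReal_ofReal (by linarith),
      ENNReal.toReal_ofReal (by linarith)]
    have := hl.1
    have := hh.2
    linarith
  · intro z _
    exact ENNReal.toReal_nonneg
  · intro z hzI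
    have : sec P z = ∅ := by
      rw [← not_nonempty_iff_eq_empty, hne]
      exact hzI
    rw [this]
    simp
  · exact (measurable_volume_sec hPm).ennreal_toReal
  · rw [ENNReal.ofReal_toReal hPk.measure_lt_top.ne, volume_eq_lintegral_sec hPm]
    apply lintegral_congr
    intro z
    exact ENNReal.ofReal_toReal (hfin z)

lemma mem_ball3 {p₀ : ℝ × ℝ × ℝ} {r x y z : ℝ} (hx : |x - p₀.1| < r)
    (hy : |y - p₀.2.1| < r) (hz : |z - p₀.2.2| < r) : (x, y, z) ∈ Metric.ball p₀ r := by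
  rw [Metric.mem_ball, Prod.dist_eq, Prod.dist_eq, Real.dist_eq, Real.dist_eq, Real.dist_eq]
  exact max_lt hx (max_lt hy hz)

/-- **Two-direction cylinder covering theorem.**  Let `K` be a convex body in `ℝ³`.  Suppose
every point `(x, y, z)` of `K` satisfies `(y, z) ∈ B₁` or `(x, z) ∈ B₂`, i.e. `K` is covered
by the cylinder over `B₁` with generators parallel to the first axis together with the
cylinder over `B₂` with generators parallel to the second axis.  Then
`area B₁ / area (P₁ K) + area B₂ / area (P₂ K) ≥ 1/2`, where `P₁ K`, `P₂ K` are the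
projections of `K` along the two axes. -/
theorem two_cylinders {K : Set (ℝ × ℝ × ℝ)} (hKc : Convex ℝ K) (hKk : IsCompact K)
    (hKi : (interior K).Nonempty) {B₁ B₂ : Set (ℝ × ℝ)} (hB₁ : MeasurableSet B₁)
    (hB₂ : MeasurableSet B₂)
    (hcov : ∀ p ∈ K, (p.2.1, p.2.2) ∈ B₁ ∨ (p.1, p.2.2) ∈ B₂) :
    (1 / 2 : ℝ≥0∞) ≤ volume B₁ / volume ((fun p : ℝ × ℝ × ℝ => (p.2.1, p.2.2)) '' K)
      + volume B₂ / volume ((fun p : ℝ × ℝ × ℝ => (p.1, p.2.2)) '' K) := by
  have hP₁k : IsCompact ((fun p : ℝ × ℝ × ℝ => (p.2.1, p.2.2)) '' K) :=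
    hKk.image (by fun_prop)
  have hP₂k : IsCompact ((fun p : ℝ × ℝ × ℝ => (p.1, p.2.2)) '' K) :=
    hKk.image (by fun_prop)
  have hP₁c : Convex ℝ ((fun p : ℝ × ℝ × ℝ => (p.2.1, p.2.2)) '' K) := by
    rintro _ ⟨p, hp, rfl⟩ _ ⟨q, hq, rfl⟩ s t hs ht hst
    exact ⟨s • p + t • q, hKc hp hq hs ht hst, rfl⟩
  have hP₂c : Convex ℝ ((fun p : ℝ × ℝ × ℝ => (p.1, p.2.2)) '' K) := by
    rintro _ ⟨p, hp, rfl⟩ _ ⟨q, hq, rfl⟩ s t hs ht hst
    exact ⟨s • p + t • q, hKc hp hq hs ht hst, rfl⟩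
  -- the range of heights
  have hZk : IsCompact ((fun p : ℝ × ℝ × ℝ => p.2.2) '' K) := hKk.image (by fun_prop)
  obtain ⟨p₀, hp₀⟩ := hKi
  have hp₀K : p₀ ∈ K := interior_subset hp₀
  have hKconn : IsConnected K := ⟨⟨p₀, hp₀K⟩, hKc.isPreconnected⟩
  have hZconn : IsConnected ((fun p : ℝ × ℝ × ℝ => p.2.2) '' K) :=
    hKconn.image _ (by fun_prop)
  have hZeq := eq_Icc_of_connected_compact hZconn hZk
  obtain ⟨r, hr, hball⟩ := Metric.isOpen_iff.mp isOpen_interior p₀ hp₀
  have hballK : Metric.ball p₀ r ⊆ K := hball.trans interior_subset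
  have hr2 : |r / 2| < r := by
    rw [abs_of_pos (by linarith)]
    linarith
  have h0r : |(0 : ℝ)| < r := by simpa using hr
  generalize hz₀ : sInf ((fun p : ℝ × ℝ × ℝ => p.2.2) '' K) = z₀ at hZeq
  generalize hz₁ : sSup ((fun p : ℝ × ℝ × ℝ => p.2.2) '' K) = z₁ at hZeq
  have hz : z₀ < z₁ := by
    have h1 : p₀.2.2 ∈ (fun p : ℝ × ℝ × ℝ => p.2.2) '' K := ⟨p₀, hp₀K, rfl⟩
    have h2 : p₀.2.2 + r / 2 ∈ (fun p : ℝ × ℝ × ℝ => p.2.2) '' K := by
      refine ⟨(p₀.1, p₀.2.1, p₀.2.2 + r / 2), hballK (mem_ball3 ?_ ?_ ?_), rfl⟩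
      · simpa using hr
      · simpa using hr
      · simpa using hr2
    rw [hZeq] at h1 h2
    linarith [h1.1, h2.2]
  -- positivity and finiteness of the projection areas
  have hA₁pos : 0 < volume ((fun p : ℝ × ℝ × ℝ => (p.2.1, p.2.2)) '' K) := by
    have hsub : Metric.ball ((p₀.2.1, p₀.2.2) : ℝ × ℝ) r
        ⊆ (fun p : ℝ × ℝ × ℝ => (p.2.1, p.2.2)) '' K := by
      intro q hq
      rw [Metric.mem_ball, Prod.dist_eq, Real.dist_eq, Real.dist_eq] at hq
      refine ⟨(p₀.1, q.1, q.2), hballK (mem_ball3 ?_ ?_ ?_), rfl⟩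
      · simpa using hr
      · exact lt_of_le_of_lt (le_max_left _ _) hq
      · exact lt_of_le_of_lt (le_max_right _ _) hq
    exact lt_of_lt_of_le (Metric.measure_ball_pos volume _ hr) (measure_mono hsub)
  have hA₂pos : 0 < volume ((fun p : ℝ × ℝ × ℝ => (p.1, p.2.2)) '' K) := by
    have hsub : Metric.ball ((p₀.1, p₀.2.2) : ℝ × ℝ) r
        ⊆ (fun p : ℝ × ℝ × ℝ => (p.1, p.2.2)) '' K := by
      intro q hq
      rw [Metric.mem_ball, Prod.dist_eq, Real.dist_eq, Real.dist_eq] at hq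
      refine ⟨(q.1, p₀.2.1, q.2), hballK (mem_ball3 ?_ ?_ ?_), rfl⟩
      · exact lt_of_le_of_lt (le_max_left _ _) hq
      · simpa using hr
      · exact lt_of_le_of_lt (le_max_right _ _) hq
    exact lt_of_lt_of_le (Metric.measure_ball_pos volume _ hr) (measure_mono hsub)
  have hA₁fin := hP₁k.measure_lt_top (μ := volume)
  have hA₂fin := hP₂k.measure_lt_top (μ := volume)
  have hne₁ : ∀ z, (sec ((fun p : ℝ × ℝ × ℝ => (p.2.1, p.2.2)) '' K) z).Nonempty
      ↔ z ∈ Icc z₀ z₁ := by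
    intro z
    rw [← hZeq]
    constructor
    · rintro ⟨y, p, hp, hpe⟩
      exact ⟨p, hp, (Prod.ext_iff.mp hpe).2⟩
    · rintro ⟨p, hp, rfl⟩
      exact ⟨p.2.1, p, hp, rfl⟩
  have hne₂ : ∀ z, (sec ((fun p : ℝ × ℝ × ℝ => (p.1, p.2.2)) '' K) z).Nonempty
      ↔ z ∈ Icc z₀ z₁ := by
    intro z
    rw [← hZeq]
    constructor
    · rintro ⟨y, p, hp, hpe⟩
      exact ⟨p, hp, (Prod.ext_iff.mp hpe).2⟩
    · rintro ⟨p, hp, rfl⟩
      exact ⟨p.1, p, hp, rfl⟩
  have T₁ := section_tent hP₁c hP₁k hz hne₁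
  have T₂ := section_tent hP₂c hP₂k hz hne₂
  generalize hP₁ : (fun p : ℝ × ℝ × ℝ => (p.2.1, p.2.2)) '' K = P₁ at *
  generalize hP₂ : (fun p : ℝ × ℝ × ℝ => (p.1, p.2.2)) '' K = P₂ at *
  have ha₁ : 0 < (volume P₁).toReal := ENNReal.toReal_pos hA₁pos.ne' hA₁fin.ne
  have ha₂ : 0 < (volume P₂).toReal := ENNReal.toReal_pos hA₂pos.ne' hA₂fin.ne
  -- the pointwise inequality
  have hpt : ∀ z ∈ Icc z₀ z₁, ENNReal.ofReal (tent z₀ z₁ z)
      ≤ volume (sec B₁ z) / volume P₁ + volume (sec B₂ z) / volume P₂ := by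
    intro z hzI
    obtain ⟨lJ, hJ, hlJ, eJ⟩ := sec_interval hP₁c hP₁k ((hne₁ z).mpr hzI)
    obtain ⟨lI, hI, hlI, eI⟩ := sec_interval hP₂c hP₂k ((hne₂ z).mpr hzI)
    have t₁ := T₁ z hzI
    have t₂ := T₂ z hzI
    rw [eJ, Real.volume_Icc, ENNReal.toReal_ofReal (by linarith)] at t₁
    rw [eI, Real.volume_Icc, ENNReal.toReal_ofReal (by linarith)] at t₂
    have hτ : 0 ≤ tent z₀ z₁ z := tent_nonneg hzI
    have hKzc : Convex ℝ {q : ℝ × ℝ | (q.1, q.2, z) ∈ K} := by
      intro q hq q' hq' s t hs ht hst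
      have h : s • ((q.1, q.2, z) : ℝ × ℝ × ℝ) + t • ((q'.1, q'.2, z) : ℝ × ℝ × ℝ) ∈ K :=
        hKc hq hq' hs ht hst
      have e : s • ((q.1, q.2, z) : ℝ × ℝ × ℝ) + t • ((q'.1, q'.2, z) : ℝ × ℝ × ℝ)
          = ((s • q + t • q').1, (s • q + t • q').2, z) := by
        ext
        · simp
        · simp
        · simp only [Prod.snd_add, Prod.smul_snd, smul_eq_mul]
          linear_combination z * hst
      rw [e] at h
      exact h
    have hlI_mem : lI ∈ sec P₂ z := by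
      rw [eI]
      exact left_mem_Icc.mpr hlI
    have hhI_mem : hI ∈ sec P₂ z := by
      rw [eI]
      exact right_mem_Icc.mpr hlI
    have hlJ_mem : lJ ∈ sec P₁ z := by
      rw [eJ]
      exact left_mem_Icc.mpr hlJ
    have hhJ_mem : hJ ∈ sec P₁ z := by
      rw [eJ]
      exact right_mem_Icc.mpr hlJ
    rw [← hP₂] at hlI_mem hhI_mem
    rw [← hP₁] at hlJ_mem hhJ_mem
    obtain ⟨pL, hpL, epL⟩ := hlI_mem
    obtain ⟨pR, hpR, epR⟩ := hhI_mem
    obtain ⟨pB, hpB, epB⟩ := hlJ_mem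
    obtain ⟨pT, hpT, epT⟩ := hhJ_mem
    have eL1 : pL.1 = lI := (Prod.ext_iff.mp epL).1
    have eL2 : pL.2.2 = z := (Prod.ext_iff.mp epL).2
    have eR1 : pR.1 = hI := (Prod.ext_iff.mp epR).1
    have eR2 : pR.2.2 = z := (Prod.ext_iff.mp epR).2
    have eB1 : pB.2.1 = lJ := (Prod.ext_iff.mp epB).1
    have eB2 : pB.2.2 = z := (Prod.ext_iff.mp epB).2
    have eT1 : pT.2.1 = hJ := (Prod.ext_iff.mp epT).1
    have eT2 : pT.2.2 = z := (Prod.ext_iff.mp epT).2
    have hL : (lI, pL.2.1) ∈ {q : ℝ × ℝ | (q.1, q.2, z) ∈ K} := by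
      show (lI, pL.2.1, z) ∈ K
      rw [← eL1, ← eL2]
      exact hpL
    have hR : (hI, pR.2.1) ∈ {q : ℝ × ℝ | (q.1, q.2, z) ∈ K} := by
      show (hI, pR.2.1, z) ∈ K
      rw [← eR1, ← eR2]
      exact hpR
    have hB : (pB.1, lJ) ∈ {q : ℝ × ℝ | (q.1, q.2, z) ∈ K} := by
      show (pB.1, lJ, z) ∈ K
      rw [← eB1, ← eB2]
      exact hpB
    have hT : (pT.1, hJ) ∈ {q : ℝ × ℝ | (q.1, q.2, z) ∈ K} := by
      show (pT.1, hJ, z) ∈ K
      rw [← eT1, ← eT2]
      exact hpT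
    have hb₂ : pL.2.1 ∈ Icc lJ hJ := by
      rw [← eJ, ← hP₁]
      exact ⟨pL, hpL, by rw [← eL2]⟩
    have hb₁ : pR.2.1 ∈ Icc lJ hJ := by
      rw [← eJ, ← hP₁]
      exact ⟨pR, hpR, by rw [← eR2]⟩
    have ha₁' : pB.1 ∈ Icc lI hI := by
      rw [← eI, ← hP₂]
      exact ⟨pB, hpB, by rw [← eB2]⟩
    have ha₂' : pT.1 ∈ Icc lI hI := by
      rw [← eI, ← hP₂]
      exact ⟨pT, hpT, by rw [← eT2]⟩
    have hX : MeasurableSet (sec B₂ z)ᶜ := (measurableSet_sec hB₂ z).compl
    have hY : MeasurableSet (sec B₁ z)ᶜ := (measurableSet_sec hB₁ z).compl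
    have hmiss : ∀ q ∈ {q : ℝ × ℝ | (q.1, q.2, z) ∈ K},
        q.1 ∈ (sec B₂ z)ᶜ → q.2 ∈ (sec B₁ z)ᶜ → False := by
      intro q hq h1 h2
      rcases hcov _ hq with h | h
      · exact h2 h
      · exact h1 h
    have key := slice_ineq hKzc hlI hlJ ha₁' ha₂' hb₁ hb₂ hL hR hB hT hX hY hmiss
    rw [mlen_compl (measurableSet_sec hB₂ z) hlI, mlen_compl (measurableSet_sec hB₁ z) hlJ]
      at key
    have hβ₁ : 0 ≤ mlen (sec B₁ z) lJ hJ := mlen_nonneg _ _ _
    have hβ₂ : 0 ≤ mlen (sec B₂ z) lI hI := mlen_nonneg _ _ _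
    have hreal : tent z₀ z₁ z
        ≤ mlen (sec B₁ z) lJ hJ / (volume P₁).toReal
          + mlen (sec B₂ z) lI hI / (volume P₂).toReal := by
      rcases eq_or_lt_of_le hτ with h0 | hpos
      · rw [← h0]
        exact add_nonneg (div_nonneg hβ₁ ha₁.le) (div_nonneg hβ₂ ha₂.le)
      · have hj : 0 < hJ - lJ := lt_of_lt_of_le (mul_pos ha₁ hpos) t₁
        have hi : 0 < hI - lI := lt_of_lt_of_le (mul_pos ha₂ hpos) t₂
        have h1 : mlen (sec B₁ z) lJ hJ * tent z₀ z₁ z / (hJ - lJ)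
            ≤ mlen (sec B₁ z) lJ hJ / (volume P₁).toReal := by
          rw [div_le_div_iff₀ hj ha₁]
          have := mul_le_mul_of_nonneg_left t₁ hβ₁
          linarith
        have h2 : mlen (sec B₂ z) lI hI * tent z₀ z₁ z / (hI - lI)
            ≤ mlen (sec B₂ z) lI hI / (volume P₂).toReal := by
          rw [div_le_div_iff₀ hi ha₂]
          have := mul_le_mul_of_nonneg_left t₂ hβ₂
          linarith
        have h3 : tent z₀ z₁ z ≤ mlen (sec B₁ z) lJ hJ * tent z₀ z₁ z / (hJ - lJ)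
            + mlen (sec B₂ z) lI hI * tent z₀ z₁ z / (hI - lI) := by
          rw [div_add_div _ _ hj.ne' hi.ne', le_div_iff₀ (mul_pos hj hi)]
          have := mul_le_mul_of_nonneg_left key hτ
          linarith
        linarith
    calc ENNReal.ofReal (tent z₀ z₁ z)
        ≤ ENNReal.ofReal (mlen (sec B₁ z) lJ hJ / (volume P₁).toReal
          + mlen (sec B₂ z) lI hI / (volume P₂).toReal) := ENNReal.ofReal_le_ofReal hreal
      _ = ENNReal.ofReal (mlen (sec B₁ z) lJ hJ) / volume P₁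
          + ENNReal.ofReal (mlen (sec B₂ z) lI hI) / volume P₂ := by
          rw [ENNReal.ofReal_add (div_nonneg hβ₁ ha₁.le) (div_nonneg hβ₂ ha₂.le),
            ENNReal.ofReal_div_of_pos ha₁, ENNReal.ofReal_div_of_pos ha₂,
            ENNReal.ofReal_toReal hA₁fin.ne, ENNReal.ofReal_toReal hA₂fin.ne]
      _ ≤ volume (sec B₁ z) / volume P₁ + volume (sec B₂ z) / volume P₂ := by
          apply add_le_add
          · apply ENNReal.div_le_div_right
            exact ENNReal.ofReal_toReal_le.trans (measure_mono inter_subset_left)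
          · apply ENNReal.div_le_div_right
            exact ENNReal.ofReal_toReal_le.trans (measure_mono inter_subset_left)
  -- integrate over the height
  have hm₁ : Measurable (fun z => volume (sec B₁ z)) := measurable_volume_sec hB₁
  have hm₂ : Measurable (fun z => volume (sec B₂ z)) := measurable_volume_sec hB₂
  have hI₁ : volume B₁ / volume P₁ = ∫⁻ z, volume (sec B₁ z) / volume P₁ := by
    rw [volume_eq_lintegral_sec hB₁]
    simp only [div_eq_mul_inv]
    rw [lintegral_mul_const _ hm₁]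
  have hI₂ : volume B₂ / volume P₂ = ∫⁻ z, volume (sec B₂ z) / volume P₂ := by
    rw [volume_eq_lintegral_sec hB₂]
    simp only [div_eq_mul_inv]
    rw [lintegral_mul_const _ hm₂]
  calc (1 / 2 : ℝ≥0∞) = ∫⁻ z in Icc z₀ z₁, ENNReal.ofReal (tent z₀ z₁ z) :=
        (lintegral_tent hz).symm
    _ ≤ ∫⁻ z in Icc z₀ z₁, (volume (sec B₁ z) / volume P₁ + volume (sec B₂ z) / volume P₂) :=
        setLIntegral_mono' measurableSet_Icc hpt
    _ ≤ ∫⁻ z, (volume (sec B₁ z) / volume P₁ + volume (sec B₂ z) / volume P₂) :=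
        setLIntegral_le_lintegral _ _
    _ = volume B₁ / volume P₁ + volume B₂ / volume P₂ := by
        rw [lintegral_add_left (hm₁.div_const _), ← hI₁, ← hI₂]

end Vale.Agent.H65
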